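import Vale.Agent.P038.Defs
import Mathlib

/-!
# Seymour's second neighbourhood conjecture: the min-cut inequality

`R a b` means that `b` is in the closed out-neighbourhood of `a`.
-/

namespace Vale.Agent.P038.H596

open Finset

variable {V : Type*} [Fintype V] [DecidableEq V]

open Classical in
/-- The closed out-neighbourhood of a set. -/
noncomputable def N (R : V → V → Prop) (S : Finset V) : Finset V :=
  univ.filter fun z => ∃ x ∈ S, R x z

/-- The size of the outer boundary of a set. -/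
noncomputable def c (R : V → V → Prop) (S : Finset V) : ℤ := ((N R S).card : ℤ) - S.card

omit [DecidableEq V] in
theorem mem_N {R : V → V → Prop} {S : Finset V} {z : V} : z ∈ N R S ↔ ∃ x ∈ S, R x z := by
  classical
  simp [N]

theorem N_mono {R : V → V → Prop} {S T : Finset V} (h : S ⊆ T) : N R S ⊆ N R T := by
  intro z hz
  obtain ⟨x, hx, hxz⟩ := mem_N.1 hz
  exact mem_N.2 ⟨x, h hx, hxz⟩

theorem sub_N {R : V → V → Prop} (hR : ∀ a, R a a) (S : Finset V) : S ⊆ N R S :=
  fun z hz => mem_N.2 ⟨z, hz, hR z⟩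

theorem N_union {R : V → V → Prop} (S T : Finset V) : N R (S ∪ T) = N R S ∪ N R T := by
  ext z
  simp only [mem_N, mem_union]
  constructor
  · rintro ⟨x, hx | hx, h⟩
    · exact Or.inl ⟨x, hx, h⟩
    · exact Or.inr ⟨x, hx, h⟩
  · rintro (⟨x, hx, h⟩ | ⟨x, hx, h⟩)
    · exact ⟨x, Or.inl hx, h⟩
    · exact ⟨x, Or.inr hx, h⟩

theorem c_submod (R : V → V → Prop) (S T : Finset V) :
    c R (S ∪ T) + c R (S ∩ T) ≤ c R S + c R T := by
  have h2 : N R (S ∩ T) ⊆ N R S ∩ N R T := by
    intro z hz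
    obtain ⟨x, hx, h⟩ := mem_N.1 hz
    rw [mem_inter] at hx
    exact mem_inter.2 ⟨mem_N.2 ⟨x, hx.1, h⟩, mem_N.2 ⟨x, hx.2, h⟩⟩
  have h3 := card_union_add_card_inter S T
  have h4 := card_union_add_card_inter (N R S) (N R T)
  have h5 := card_le_card h2
  unfold c
  rw [N_union]
  omega

open Classical in
/-- The sets between `S ∪ (T ∩ B)` and `T`. -/
noncomputable def cand (S T B : Finset V) : Finset (Finset V) :=
  univ.filter fun W => S ⊆ W ∧ T ∩ B ⊆ W ∧ W ⊆ T

theorem mem_cand {S T B W : Finset V} : W ∈ cand S T B ↔ S ⊆ W ∧ T ∩ B ⊆ W ∧ W ⊆ T := by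
  classical
  simp [cand]

open Classical in
/-- The least boundary of a set between `S ∪ (T ∩ B)` and `T`. -/
noncomputable def Gm (R : V → V → Prop) (S T B : Finset V) : ℤ :=
  if h : (cand S T B).Nonempty then (cand S T B).inf' h (c R) else 0

theorem Gm_le {R : V → V → Prop} {S T B W : Finset V} (h1 : S ⊆ W) (h2 : T ∩ B ⊆ W)
    (h3 : W ⊆ T) : Gm R S T B ≤ c R W := by
  have hW : W ∈ cand S T B := mem_cand.2 ⟨h1, h2, h3⟩
  have h : (cand S T B).Nonempty := ⟨W, hW⟩
  unfold Gm
  rw [dif_pos h]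
  exact Finset.inf'_le (c R) hW

theorem Gm_ex (R : V → V → Prop) {S T : Finset V} (B : Finset V) (hST : S ⊆ T) :
    ∃ W, S ⊆ W ∧ T ∩ B ⊆ W ∧ W ⊆ T ∧ c R W = Gm R S T B := by
  have h : (cand S T B).Nonempty := ⟨T, mem_cand.2 ⟨hST, inter_subset_left, Subset.refl _⟩⟩
  obtain ⟨W, hW, hW'⟩ := Finset.exists_mem_eq_inf' h (c R)
  obtain ⟨h1, h2, h3⟩ := mem_cand.1 hW
  refine ⟨W, h1, h2, h3, ?_⟩
  unfold Gm
  rw [dif_pos h]
  exact hW'.symm

theorem Gm_univ (R : V → V → Prop) {S T : Finset V} (hST : S ⊆ T) :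
    Gm R S T univ = c R T := by
  obtain ⟨W, _, h2, h3, h4⟩ := Gm_ex R univ hST
  have : W = T := Subset.antisymm h3 (by simpa using h2)
  rw [← h4, this]

theorem Gm_empty (R : V → V → Prop) {S T : Finset V} (hST : S ⊆ T)
    (hmin : ∀ W, S ⊆ W → W ⊆ T → c R S ≤ c R W) : Gm R S T ∅ = c R S := by
  apply le_antisymm
  · exact Gm_le (Subset.refl _) (by simp) hST
  · obtain ⟨W, h1, _, h3, h4⟩ := Gm_ex R ∅ hST
    rw [← h4]
    exact hmin W h1 h3

theorem Gm_mono (R : V → V → Prop) {S T : Finset V} (hST : S ⊆ T) (b : V) (B : Finset V) :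
    Gm R S T B ≤ Gm R S T (insert b B) := by
  obtain ⟨W, h1, h2, h3, h4⟩ := Gm_ex R (insert b B) hST
  rw [← h4]
  refine Gm_le h1 ?_ h3
  intro x hx
  rw [mem_inter] at hx
  exact h2 (mem_inter.2 ⟨hx.1, mem_insert_of_mem hx.2⟩)

theorem Gm_same (R : V → V → Prop) {S T : Finset V} (hST : S ⊆ T) (b : V) (B : Finset V)
    (hb : b ∉ T ∨ b ∈ S) : Gm R S T (insert b B) ≤ Gm R S T B := by
  obtain ⟨W, h1, h2, h3, h4⟩ := Gm_ex R B hST
  rw [← h4]
  refine Gm_le h1 ?_ h3
  intro x hx
  rw [mem_inter, mem_insert] at hx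
  obtain ⟨hxT, hx | hx⟩ := hx
  · subst hx
    rcases hb with hb | hb
    · exact absurd hxT hb
    · exact h1 hb
  · exact h2 (mem_inter.2 ⟨hxT, hx⟩)

/-- Monotonicity of the increments (3a). -/
theorem Gm_key (R : V → V → Prop) {S T S' T' : Finset V} (hST : S ⊆ T) (hS : S' ⊆ S)
    (hT : T' ⊆ T) (hST' : S' ⊆ T') {b : V} (B : Finset V) (hb : b ∈ T') :
    Gm R S T (insert b B) - Gm R S T B ≤ Gm R S' T' (insert b B) - Gm R S' T' B := by
  obtain ⟨W1, a1, a2, a3, a4⟩ := Gm_ex R (insert b B) hST'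
  obtain ⟨W2, b1, b2, b3, b4⟩ := Gm_ex R B hST
  have h1 : Gm R S T (insert b B) ≤ c R (W1 ∪ W2) := by
    refine Gm_le (b1.trans subset_union_right) ?_ (union_subset (a3.trans hT) b3)
    intro x hx
    rw [mem_inter, mem_insert] at hx
    obtain ⟨hxT, hx | hx⟩ := hx
    · subst hx
      exact mem_union_left _ (a2 (mem_inter.2 ⟨hb, mem_insert_self _ _⟩))
    · exact mem_union_right _ (b2 (mem_inter.2 ⟨hxT, hx⟩))
  have h2 : Gm R S' T' B ≤ c R (W1 ∩ W2) := by
    refine Gm_le (subset_inter a1 (hS.trans b1)) ?_ (inter_subset_left.trans a3)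
    intro x hx
    rw [mem_inter] at hx
    exact mem_inter.2 ⟨a2 (mem_inter.2 ⟨hx.1, mem_insert_of_mem hx.2⟩),
      b2 (mem_inter.2 ⟨hT hx.1, hx.2⟩)⟩
  have h3 := c_submod R W1 W2
  linarith

theorem layerN {ι : Type*} [Fintype ι] (f g : ι → ℕ)
    (h : ∀ t : ℕ, (univ.filter fun a => t < f a).card ≤ (univ.filter fun a => t < g a).card) :
    ∑ a, f a ≤ ∑ a, g a := by
  classical
  set M : ℕ := ∑ a, f a + ∑ a, g a with hM
  have key : ∀ x : ℕ, x ≤ M → x = ∑ t ∈ range M, if t < x then 1 else 0 := by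
    intro x hx
    rw [← card_filter]
    have : (range M).filter (fun t => t < x) = range x := by
      ext t
      simp only [mem_filter, mem_range]
      omega
    rw [this, card_range]
  have hf : ∀ a, f a ≤ M := fun a =>
    (single_le_sum (f := f) (fun _ _ => Nat.zero_le _) (mem_univ a)).trans (Nat.le_add_right _ _)
  have hg : ∀ a, g a ≤ M := fun a =>
    (single_le_sum (f := g) (fun _ _ => Nat.zero_le _) (mem_univ a)).trans (Nat.le_add_left _ _)
  calc ∑ a, f a = ∑ a, ∑ t ∈ range M, (if t < f a then 1 else 0) :=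
        sum_congr rfl fun a _ => key _ (hf a)
    _ = ∑ t ∈ range M, ∑ a, (if t < f a then 1 else 0) := sum_comm
    _ = ∑ t ∈ range M, (univ.filter fun a => t < f a).card :=
        sum_congr rfl fun t _ => (card_filter _ _).symm
    _ ≤ ∑ t ∈ range M, (univ.filter fun a => t < g a).card := sum_le_sum fun t _ => h t
    _ = ∑ t ∈ range M, ∑ a, (if t < g a then 1 else 0) :=
        sum_congr rfl fun t _ => card_filter _ _
    _ = ∑ a, ∑ t ∈ range M, (if t < g a then 1 else 0) := sum_comm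
    _ = ∑ a, g a := (sum_congr rfl fun a _ => key _ (hg a)).symm

theorem layer {ι : Type*} [Fintype ι] (f g : ι → ℤ) (hf : ∀ a, 0 ≤ f a) (hg : ∀ a, 0 ≤ g a)
    (h : ∀ t : ℤ, 0 < t →
      (univ.filter fun a => t ≤ f a).card ≤ (univ.filter fun a => t ≤ g a).card) :
    ∑ a, f a ≤ ∑ a, g a := by
  have h1 : ∑ a, (f a).toNat ≤ ∑ a, (g a).toNat := by
    apply layerN
    intro t
    have e : ∀ k : ι → ℤ, (univ.filter fun a => t < (k a).toNat)
        = univ.filter fun a => ((t : ℤ) + 1) ≤ k a := by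
      intro k
      ext a
      simp only [mem_filter, mem_univ, true_and]
      omega
    rw [e f, e g]
    exact h _ (by omega)
  have h2 : ∀ k : ι → ℤ, (∀ a, 0 ≤ k a) → ((∑ a, (k a).toNat : ℕ) : ℤ) = ∑ a, k a := by
    intro k hk
    rw [Nat.cast_sum]
    exact sum_congr rfl fun a _ => Int.toNat_of_nonneg (hk a)
  rw [← h2 f hf, ← h2 g hg]
  exact_mod_cast h1

open Classical in
/-- Intersection of the rows over the closed in-neighbourhood. -/
noncomputable def Hat (R : V → V → Prop) (X : V → Finset V) (v : V) : Finset V :=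
  univ.filter fun b => ∀ u, R u v → b ∈ X u

theorem mem_Hat {R : V → V → Prop} {X : V → Finset V} {v b : V} :
    b ∈ Hat R X v ↔ ∀ u, R u v → b ∈ X u := by
  classical
  simp [Hat]

theorem Hat_sub {R : V → V → Prop} {X : V → Finset V} {u v : V} (h : R u v) :
    Hat R X v ⊆ X u := fun _ hb => mem_Hat.1 hb u h

theorem Hat_mono {R : V → V → Prop} {X Z : V → Finset V} (h : ∀ a, X a ⊆ Z a) (v : V) :
    Hat R X v ⊆ Hat R Z v := fun _ hb => mem_Hat.2 fun u hu => h u (mem_Hat.1 hb u hu)

/-- (2): the rows of the intersected family are critical. -/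
theorem crit (R : V → V → Prop) (X Z : V → Finset V)
    (hNX : ∀ a b, R a b → b ∈ X a) (hXZ : ∀ a, X a ⊆ Z a)
    (hrow : ∀ a W, (∀ b, R a b → b ∈ W) → W ⊆ Z a → c R (X a) ≤ c R W)
    (v : V) (W : Finset V) (h1 : Hat R X v ⊆ W) (h2 : W ⊆ Hat R Z v) :
    c R (Hat R X v) ≤ c R W := by
  classical
  have key : ∀ U : Finset V, (∀ u ∈ U, R u v) →
      c R (W.filter fun b => ∀ u ∈ U, b ∈ X u) ≤ c R W := by
    intro U
    induction U using Finset.induction_on with
    | empty =>
      intro _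
      simp
    | insert u U hu ih =>
      intro hU
      have ih' := ih fun u' hu' => hU u' (mem_insert_of_mem hu')
      have hRu : R u v := hU u (mem_insert_self _ _)
      set P := W.filter fun b => ∀ u ∈ U, b ∈ X u with hP
      have e : (W.filter fun b => ∀ u' ∈ insert u U, b ∈ X u') = P ∩ X u := by
        ext b
        simp only [mem_filter, mem_insert, forall_eq_or_imp, mem_inter, hP]
        tauto
      rw [e]
      have hsub := c_submod R P (X u)
      have hPW : P ⊆ W := filter_subset _ _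
      have h3 : c R (X u) ≤ c R (P ∪ X u) := by
        refine hrow u _ (fun b hb => mem_union_right _ (hNX u b hb)) ?_
        exact union_subset ((hPW.trans h2).trans (Hat_sub hRu)) (hXZ u)
      linarith
  have h3 := key (univ.filter fun u => R u v) (by simp)
  have e : (W.filter fun b => ∀ u ∈ univ.filter (fun u => R u v), b ∈ X u) = Hat R X v := by
    ext b
    simp only [mem_filter, mem_univ, true_and, mem_Hat]
    constructor
    · rintro ⟨_, h⟩
      exact h
    · intro h
      exact ⟨h1 (mem_Hat.2 h), h⟩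
  rwa [e] at h3

open Classical in
/-- (3): the main inequality. -/
theorem main_ineq (R : V → V → Prop) (X Z : V → Finset V)
    (hNX : ∀ a b, R a b → b ∈ X a) (hXZ : ∀ a, X a ⊆ Z a)
    (hrow : ∀ a W, (∀ b, R a b → b ∈ W) → W ⊆ Z a → c R (X a) ≤ c R W)
    (hcol : ∀ (b : V) (U : Finset V), (∀ a ∈ U, b ∈ Z a ∧ b ∉ X a) →
      U.card ≤ (univ.filter fun v => b ∈ Hat R Z v ∧ ∃ a ∈ U, R a v).card) :
    ∑ a, (c R (Z a) - c R (X a)) ≤ ∑ v, (c R (Hat R Z v) - c R (Hat R X v)) := by
  have hH : ∀ v, Hat R X v ⊆ Hat R Z v := Hat_mono hXZ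
  have step : ∀ B : Finset V,
      ∑ a, (Gm R (X a) (Z a) B - Gm R (X a) (Z a) ∅) ≤
        ∑ v, (Gm R (Hat R X v) (Hat R Z v) B - Gm R (Hat R X v) (Hat R Z v) ∅) := by
    intro B
    induction B using Finset.induction_on with
    | empty => simp
    | insert b B hb ih =>
      have hinc : ∑ a, (Gm R (X a) (Z a) (insert b B) - Gm R (X a) (Z a) B) ≤
          ∑ v, (Gm R (Hat R X v) (Hat R Z v) (insert b B) -
            Gm R (Hat R X v) (Hat R Z v) B) := by
        apply layer
        · intro a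
          have := Gm_mono R (hXZ a) b B
          linarith
        · intro v
          have := Gm_mono R (hH v) b B
          linarith
        · intro t ht
          set U := univ.filter fun a =>
            t ≤ Gm R (X a) (Z a) (insert b B) - Gm R (X a) (Z a) B with hU
          have hUb : ∀ a ∈ U, b ∈ Z a ∧ b ∉ X a := by
            intro a ha
            have ha' := (mem_filter.1 ha).2
            by_contra hcon
            have : b ∉ Z a ∨ b ∈ X a := by tauto
            have := Gm_same R (hXZ a) b B this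
            linarith
          refine (hcol b U hUb).trans (card_le_card ?_)
          intro v hv
          obtain ⟨hbv, a, haU, hav⟩ := (mem_filter.1 hv).2
          have ha' := (mem_filter.1 haU).2
          refine mem_filter.2 ⟨mem_univ _, ?_⟩
          have := Gm_key R (hXZ a) (Hat_sub (X := X) hav) (Hat_sub (X := Z) hav) (hH v) B hbv
          linarith
      simp only [sum_sub_distrib] at ih hinc ⊢
      linarith
  have hfin := step univ
  have e1 : ∀ a, Gm R (X a) (Z a) univ - Gm R (X a) (Z a) ∅ = c R (Z a) - c R (X a) := by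
    intro a
    rw [Gm_univ R (hXZ a), Gm_empty R (hXZ a)]
    intro W h1 h2
    exact hrow a W (fun b hb => h1 (hNX a b hb)) h2
  have e2 : ∀ v, Gm R (Hat R X v) (Hat R Z v) univ - Gm R (Hat R X v) (Hat R Z v) ∅
      = c R (Hat R Z v) - c R (Hat R X v) := by
    intro v
    rw [Gm_univ R (hH v), Gm_empty R (hH v)]
    intro W h1 h2
    exact crit R X Z hNX hXZ hrow v W h1 h2
  simp only [e1, e2] at hfin
  exact hfin

end Vale.Agent.P038.H596
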