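import Vale.Agent.P038.H596.Cut

/-!
# The strict inequality (G) in an arc-minimal counterexample
-/

namespace Vale.Agent.P038.H596

open Finset

variable {V : Type*} [Fintype V] [DecidableEq V]

/-- The closed out-neighbour relation. -/
def Rc (D : OGraph V) (a b : V) : Prop := a = b ∨ D.arc a b

/-- A counterexample to Seymour's conjecture. -/
def CE (D : OGraph V) : Prop := ∀ v, (N2 D v).card < (N1 D v).card

/-- An arc-minimal counterexample. -/
structure Min (D : OGraph V) : Prop where
  ce : CE D
  min : ∀ D' : OGraph V, (∀ a b, D'.arc a b → D.arc a b) → CE D' → ∀ a b, D.arc a b → D'.arc a b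

/-- Delete the arcs from `S` to the complement of `S ∪ T`. -/
def del (D : OGraph V) (S T : Finset V) : OGraph V where
  arc a b := D.arc a b ∧ ¬ (a ∈ S ∧ b ∉ S ∧ b ∉ T)
  loopless v h := D.loopless v h.1
  asymm _ _ h h' := D.asymm _ _ h.1 h'.1

/-- (G), strict, for every set. -/
theorem strictG (D : OGraph V) (h : Min D) (S : Finset V) (hS : N (Rc D) S ≠ S) :
    c (Rc D) (N (Rc D) S) < c (Rc D) S := by
  classical
  set R := Rc D with hRdef
  have hR : ∀ a, R a a := fun a => Or.inl rfl
  set L := N R S \ S with hL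
  have hSN : S ⊆ N R S := sub_N hR S
  have hLne : L.Nonempty := by
    rw [Finset.nonempty_iff_ne_empty]
    intro h0
    apply hS
    apply Subset.antisymm _ hSN
    intro x hx
    by_contra hxS
    have : x ∈ L := mem_sdiff.2 ⟨hx, hxS⟩
    rw [h0] at this
    simp at this
  -- the function d
  set d : Finset V → ℤ := fun T => ((N R T \ S).card : ℤ) - 2 * T.card with hd
  -- N (N S) \ S = N L \ S
  have eNN : N R (N R S) \ S = N R L \ S := by
    have e1 : N R S = S ∪ L := by
      rw [hL, union_sdiff_of_subset hSN]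
    ext x
    simp only [mem_sdiff]
    constructor
    · rintro ⟨hx, hxS⟩
      refine ⟨?_, hxS⟩
      rw [e1, N_union, mem_union] at hx
      rcases hx with hx | hx
      · have : x ∈ L := mem_sdiff.2 ⟨hx, hxS⟩
        exact sub_N hR L this
      · exact hx
    · rintro ⟨hx, hxS⟩
      refine ⟨?_, hxS⟩
      rw [e1, N_union]
      exact mem_union_right _ hx
  have hSNN : S ⊆ N R (N R S) := hSN.trans (sub_N hR _)
  have hcard1 : (N R (N R S)).card = (N R L \ S).card + S.card := by
    rw [← eNN, card_sdiff_add_card_eq_card hSNN]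
  have hcard2 : (N R S).card = L.card + S.card := by
    rw [hL, card_sdiff_add_card_eq_card hSN]
  by_contra hcon
  have hdL : 0 ≤ d L := by
    simp only [hd]
    unfold c at hcon
    push Not at hcon
    omega
  have hd0 : d ∅ = 0 := by
    have : N R (∅ : Finset V) = ∅ := by
      rw [Finset.eq_empty_iff_forall_notMem]
      intro z hz
      obtain ⟨x, hx, _⟩ := mem_N.1 hz
      simp at hx
    simp [hd, this]
  -- a minimiser among the proper subsets of L
  obtain ⟨T, hT, hTmin⟩ := Finset.exists_min_image L.ssubsets d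
    ⟨∅, Finset.mem_ssubsets.2 (Finset.empty_ssubset.2 hLne)⟩
  rw [Finset.mem_ssubsets] at hT
  have hTL : T ⊆ L := hT.1
  have hmin : ∀ T', T' ⊆ L → d T ≤ d T' := by
    intro T' hT'
    by_cases h1 : T' = L
    · subst h1
      have := hTmin ∅ (Finset.mem_ssubsets.2 (Finset.empty_ssubset.2 hLne))
      linarith
    · exact hTmin T' (Finset.mem_ssubsets.2 (lt_of_le_of_ne hT' h1))
  have hTS : ∀ x ∈ T, x ∉ S := fun x hx => (mem_sdiff.1 (hTL hx)).2
  -- the smaller graph is a counterexample
  have hce : CE (del D S T) := by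
    intro y
    by_cases hy : y ∈ S
    · set Dy := (N1 D y).filter (fun b => b ∉ S ∧ b ∉ T) with hDy
      have hDyL : Dy ⊆ L := by
        intro b hb
        rw [hDy, mem_filter, mem_N1] at hb
        exact mem_sdiff.2 ⟨mem_N.2 ⟨y, hy, Or.inr hb.1⟩, hb.2.1⟩
      have hDyN1 : Dy ⊆ N1 D y := filter_subset _ _
      have hdisj : Disjoint T Dy := by
        rw [disjoint_left]
        intro x hx hx'
        exact (mem_filter.1 hx').2.2 hx
      have hNdel : N1 (del D S T) y = N1 D y \ Dy := by
        ext b
        simp only [mem_N1, mem_sdiff, hDy, mem_filter, del]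
        tauto
      set Ey := N R Dy \ (N R T ∪ S) with hEy
      have hEsub : Ey ⊆ N2 D y ∪ Dy := by
        intro z hz
        rw [hEy, mem_sdiff, mem_union, not_or] at hz
        obtain ⟨hz1, hz2, hz3⟩ := hz
        obtain ⟨x, hx, hxz⟩ := mem_N.1 hz1
        by_cases hzD : z ∈ Dy
        · exact mem_union_right _ hzD
        · apply mem_union_left
          have hyx : D.arc y x := mem_N1.1 (hDyN1 hx)
          rcases hxz with hxz | hxz
          · subst hxz
            exact absurd hx hzD
          · rw [mem_N2]
            refine ⟨fun e => hz3 (e ▸ hy), fun harc => ?_, x, hyx, hxz⟩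
            apply hzD
            rw [hDy, mem_filter, mem_N1]
            exact ⟨harc, hz3, fun hzT => hz2 (sub_N hR T hzT)⟩
      have hN2sub : N2 (del D S T) y ⊆ (N2 D y ∪ Dy) \ Ey := by
        intro z hz
        rw [mem_N2] at hz
        obtain ⟨hzy, hnz, x, hyx, hxz⟩ := hz
        rw [mem_sdiff]
        constructor
        · by_cases hzD : z ∈ Dy
          · exact mem_union_right _ hzD
          · apply mem_union_left
            rw [mem_N2]
            refine ⟨hzy, fun harc => hnz ?_, x, hyx.1, hxz.1⟩
            refine ⟨harc, fun hh => hzD ?_⟩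
            rw [hDy, mem_filter, mem_N1]
            exact ⟨harc, hh.2.1, hh.2.2⟩
        · intro hzE
          rw [hEy, mem_sdiff, mem_union, not_or] at hzE
          obtain ⟨_, hz2, hz3⟩ := hzE
          by_cases hxS : x ∈ S
          · -- then z in S or T
            by_cases hzT : z ∈ T
            · exact hz2 (sub_N hR T hzT)
            · exact hxz.2 ⟨hxS, hz3, hzT⟩
          · by_cases hxT : x ∈ T
            · exact hz2 (mem_N.2 ⟨x, hxT, Or.inr hxz.1⟩)
            · exact hyx.2 ⟨hy, hxS, hxT⟩
      have hdisj2 : Disjoint (N2 D y) Dy := by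
        rw [disjoint_left]
        intro x hx hx'
        exact (mem_N2.1 hx).2.1 (mem_N1.1 (hDyN1 hx'))
      have k1 : ((N2 D y ∪ Dy) \ Ey).card + Ey.card = (N2 D y).card + Dy.card := by
        rw [card_sdiff_add_card_eq_card hEsub, card_union_of_disjoint hdisj2]
      have k2 := card_le_card hN2sub
      have k3 : (N1 D y \ Dy).card + Dy.card = (N1 D y).card :=
        card_sdiff_add_card_eq_card hDyN1
      have k4 := hmin (T ∪ Dy) (union_subset hTL hDyL)
      have k5 : (T ∪ Dy).card = T.card + Dy.card := card_union_of_disjoint hdisj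
      have k6 : (N R (T ∪ Dy) \ S).card = (N R T \ S).card + Ey.card := by
        rw [← card_union_of_disjoint]
        · congr 1
          ext x
          simp only [N_union, mem_sdiff, mem_union, hEy]
          tauto
        · rw [disjoint_left]
          intro x hx hx'
          rw [hEy, mem_sdiff, mem_union] at hx'
          exact hx'.2 (Or.inl (mem_sdiff.1 hx).1)
      have k7 := h.ce y
      simp only [hd] at k4
      rw [k5, k6] at k4
      rw [hNdel]
      push_cast at k4
      omega
    · have e1 : N1 (del D S T) y = N1 D y := by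
        ext b
        simp only [mem_N1, del]
        tauto
      have e2 : N2 (del D S T) y ⊆ N2 D y := by
        intro z hz
        rw [mem_N2] at hz ⊢
        obtain ⟨hzy, hnz, x, hyx, hxz⟩ := hz
        exact ⟨hzy, fun harc => hnz ⟨harc, fun hh => hy hh.1⟩, x, hyx.1, hxz.1⟩
      rw [e1]
      exact (card_le_card e2).trans_lt (h.ce y)
  -- but some arc has been deleted
  obtain ⟨x, hxL, hxT⟩ := Finset.exists_of_ssubset hT
  obtain ⟨hx1, hx2⟩ := mem_sdiff.1 hxL
  obtain ⟨y, hyS, hyx⟩ := mem_N.1 hx1
  rcases hyx with hyx | hyx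
  · subst hyx
    exact hx2 hyS
  · have := h.min (del D S T) (fun a b hab => hab.1) hce y x hyx
    exact this.2 ⟨hyS, hx2, hxT⟩

/-- Arc-minimal counterexamples exist. -/
theorem exists_min (D : OGraph V) (hD : CE D) : ∃ D' : OGraph V, Min D' := by
  classical
  let P : ℕ → Prop := fun n => ∃ D' : OGraph V, CE D' ∧
    (univ.filter fun q : V × V => D'.arc q.1 q.2).card = n
  have hP : ∃ n, P n := ⟨_, D, hD, rfl⟩
  obtain ⟨D', h1, h2⟩ := Nat.find_spec hP
  refine ⟨D', h1, fun D'' hsub hce a b hab => ?_⟩
  by_contra hnot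
  have hlt : (univ.filter fun q : V × V => D''.arc q.1 q.2).card <
      (univ.filter fun q : V × V => D'.arc q.1 q.2).card := by
    apply card_lt_card
    refine ⟨fun q hq => ?_, fun hcon => ?_⟩
    · rw [mem_filter] at hq ⊢
      exact ⟨hq.1, hsub _ _ hq.2⟩
    · have : (a, b) ∈ univ.filter fun q : V × V => D''.arc q.1 q.2 :=
        hcon (mem_filter.2 ⟨mem_univ _, hab⟩)
      exact hnot (mem_filter.1 this).2
  rw [h2] at hlt
  exact Nat.find_min hP hlt ⟨D'', hce, rfl⟩

end Vale.Agent.P038.H596
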