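import Vale.Agent.P038.H596.GG

/-!
# Seymour's second neighbourhood conjecture: optimal pairs and the contradiction
-/

namespace Vale.Agent.P038.H596

open Finset

variable {V : Type*} [Fintype V] [DecidableEq V]

/-- Admissible pairs of families. -/
structure Adm (R : V → V → Prop) (X Z : V → Finset V) : Prop where
  nx : ∀ a b, R a b → b ∈ X a
  xz : ∀ a, X a ⊆ Z a
  zr : ∀ a b, b ∈ Z a → R b a → a = b

/-- The cost of a pair of families. -/
noncomputable def cost (R : V → V → Prop) (X Z : V → Finset V) : ℤ :=
  ∑ a, c R (X a) + (∑ a, ((Z a).card : ℤ) - ∑ v, ((Hat R Z v).card : ℤ))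

omit [DecidableEq V] in
theorem dc (P : V → V → Prop) [∀ a, DecidablePred (P a)] [∀ b, DecidablePred fun a => P a b] :
    ∑ a, (univ.filter (P a)).card = ∑ b, (univ.filter fun a => P a b).card := by
  simp only [card_filter]
  exact sum_comm

theorem row_opt (R : V → V → Prop) (X Z : V → Finset V) (h : Adm R X Z)
    (hopt : ∀ X' Z', Adm R X' Z' → cost R X Z ≤ cost R X' Z') (a : V) (W : Finset V)
    (h1 : ∀ b, R a b → b ∈ W) (h2 : W ⊆ Z a) : c R (X a) ≤ c R W := by
  have hadm : Adm R (Function.update X a W) Z := by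
    refine ⟨fun a' b hb => ?_, fun a' => ?_, h.zr⟩
    · by_cases e : a' = a
      · subst e
        rw [Function.update_self]
        exact h1 b hb
      · rw [Function.update_of_ne e]
        exact h.nx a' b hb
    · by_cases e : a' = a
      · subst e
        rw [Function.update_self]
        exact h2
      · rw [Function.update_of_ne e]
        exact h.xz a'
  have h3 := hopt _ _ hadm
  unfold cost at h3
  have h4 : ∑ a', c R (Function.update X a W a') = c R W + ∑ a' ∈ univ.erase a, c R (X a') := by
    rw [← Finset.add_sum_erase univ _ (mem_univ a), Function.update_self]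
    congr 1
    refine sum_congr rfl fun a' ha' => ?_
    rw [Function.update_of_ne (ne_of_mem_erase ha')]
  have h5 := Finset.add_sum_erase univ (fun a' => c R (X a')) (mem_univ a)
  linarith

open Classical in
theorem col_opt (R : V → V → Prop) (X Z : V → Finset V) (h : Adm R X Z)
    (hopt : ∀ X' Z', Adm R X' Z' → cost R X Z ≤ cost R X' Z') (b : V) (U : Finset V)
    (hU : ∀ a ∈ U, b ∈ Z a ∧ b ∉ X a) :
    U.card ≤ (univ.filter fun v => b ∈ Hat R Z v ∧ ∃ a ∈ U, R a v).card := by
  set Z' : V → Finset V := fun a => if a ∈ U then (Z a).erase b else Z a with hZ'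
  have hsub : ∀ a, Z' a ⊆ Z a := by
    intro a
    simp only [hZ']
    split_ifs
    · exact erase_subset _ _
    · exact Subset.refl _
  have hadm : Adm R X Z' := by
    refine ⟨h.nx, fun a => ?_, fun a b' hb' => h.zr a b' (hsub a hb')⟩
    simp only [hZ']
    split_ifs with hh
    · intro x hx
      refine mem_erase.2 ⟨fun e => (hU a hh).2 (e ▸ hx), h.xz a hx⟩
    · exact h.xz a
  have h3 := hopt _ _ hadm
  unfold cost at h3
  have h4 : ∑ a, ((Z' a).card : ℤ) = ∑ a, ((Z a).card : ℤ) - U.card := by
    have e : ∀ a, ((Z' a).card : ℤ) = ((Z a).card : ℤ) - (if a ∈ U then 1 else 0) := by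
      intro a
      simp only [hZ']
      split_ifs with hh
      · have := card_erase_add_one (hU a hh).1
        omega
      · omega
    rw [sum_congr rfl fun a _ => e a, sum_sub_distrib]
    congr 1
    simp
  have h5 : ∑ v, ((Hat R Z v).card : ℤ) ≤ ∑ v, ((Hat R Z' v).card : ℤ) +
      (univ.filter fun v => b ∈ Hat R Z v ∧ ∃ a ∈ U, R a v).card := by
    have e : ∀ v, ((Hat R Z v).card : ℤ) ≤ ((Hat R Z' v).card : ℤ) +
        (if b ∈ Hat R Z v ∧ ∃ a ∈ U, R a v then 1 else 0) := by
      intro v
      split_ifs with hh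
      · have hs : Hat R Z v ⊆ insert b (Hat R Z' v) := by
          intro x hx
          rw [mem_insert]
          by_cases hxb : x = b
          · exact Or.inl hxb
          · right
            rw [mem_Hat]
            intro u hu
            simp only [hZ']
            split_ifs
            · exact mem_erase.2 ⟨hxb, mem_Hat.1 hx u hu⟩
            · exact mem_Hat.1 hx u hu
        have := (card_le_card hs).trans (card_insert_le _ _)
        exact_mod_cast this
      · have hs : Hat R Z v ⊆ Hat R Z' v := by
          intro x hx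
          rw [mem_Hat]
          intro u hu
          simp only [hZ']
          split_ifs with hu'
          · refine mem_erase.2 ⟨fun e => hh ⟨e ▸ hx, u, hu', hu⟩, mem_Hat.1 hx u hu⟩
          · exact mem_Hat.1 hx u hu
        have := card_le_card hs
        omega
    calc ∑ v, ((Hat R Z v).card : ℤ) ≤ ∑ v, (((Hat R Z' v).card : ℤ) +
          (if b ∈ Hat R Z v ∧ ∃ a ∈ U, R a v then 1 else 0)) := sum_le_sum fun v _ => e v
      _ = _ := by
          rw [sum_add_distrib]
          congr 1
          rw [card_filter]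
          push_cast
          rfl
  have : (U.card : ℤ) ≤ (univ.filter fun v => b ∈ Hat R Z v ∧ ∃ a ∈ U, R a v).card := by
    linarith
  exact_mod_cast this

open Classical in
/-- The second family of the candidate. -/
noncomputable def Yh (R : V → V → Prop) (Z : V → Finset V) (b : V) : Finset V :=
  insert b (univ.filter fun a => b ∉ N R (Z a))

theorem mem_Yh {R : V → V → Prop} {Z : V → Finset V} {b a : V} :
    a ∈ Yh R Z b ↔ a = b ∨ b ∉ N R (Z a) := by
  classical
  simp [Yh]

/-- (1) Legality of the candidate. -/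
theorem legal (R : V → V → Prop) (hR : ∀ a, R a a)
    (X Z : V → Finset V) (h : Adm R X Z) (a b : V) (hab : a ≠ b) (h1 : b ∈ N R (Hat R X a))
    (h2 : a ∈ N R (Yh R Z b)) : False := by
  obtain ⟨u, hu, hub⟩ := mem_N.1 h1
  obtain ⟨y, hy, hya⟩ := mem_N.1 h2
  have huy : u ∈ X y := mem_Hat.1 hu y hya
  rcases mem_Yh.1 hy with rfl | hy
  · -- y = b
    have hub' : y = u := h.zr y u (h.xz y huy) hub
    subst hub'
    have : y ∈ X a := mem_Hat.1 hu a (hR a)
    exact hab (h.zr a y (h.xz a this) hya)
  · exact hy (mem_N.2 ⟨u, h.xz y huy, hub⟩)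

open Classical in
/-- (4) The cost of the candidate. -/
theorem cost_cand (R : V → V → Prop) (hR : ∀ a, R a a)
    (X Z : V → Finset V) (h : Adm R X Z)
    (hmain : ∑ a, (c R (Z a) - c R (X a)) ≤ ∑ v, (c R (Hat R Z v) - c R (Hat R X v))) :
    ∑ a, c R (Hat R X a) + ∑ b, c R (Yh R Z b) ≤ cost R X Z := by
  -- the set G v
  set G : V → Finset V := fun v => univ.filter fun b => v ∉ N R (Yh R Z b) with hG
  have hn : ∀ (P : V → Prop) [DecidablePred P],
      ((univ.filter fun x => ¬ P x).card : ℤ) = Fintype.card V - (univ.filter P).card := by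
    intro P _
    have := Finset.card_filter_add_card_filter_not (s := (univ : Finset V)) P
    rw [card_univ] at this
    omega
  have e1 : ∑ b, ((Yh R Z b).card : ℤ) =
      Fintype.card V + ∑ a, ((Fintype.card V : ℤ) - (N R (Z a)).card) := by
    have e : ∀ b, ((Yh R Z b).card : ℤ) = 1 + (univ.filter fun a => b ∉ N R (Z a)).card := by
      intro b
      unfold Yh
      rw [card_insert_of_notMem]
      · push_cast
        ring
      · rw [mem_filter, not_and, not_not]
        intro _
        exact mem_N.2 ⟨b, h.xz b (h.nx b b (hR b)), hR b⟩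
    have e' : ∑ b, (univ.filter fun a => b ∉ N R (Z a)).card =
        ∑ a, (univ.filter fun b => b ∉ N R (Z a)).card :=
      (dc (fun a b => b ∉ N R (Z a))).symm
    rw [sum_congr rfl fun b _ => e b, sum_add_distrib, ← Nat.cast_sum, e', Nat.cast_sum]
    congr 1
    · simp
    · refine sum_congr rfl fun a _ => ?_
      rw [hn (fun b => b ∈ N R (Z a))]
      congr 2
      simp
  have e2 : ∑ b, ((N R (Yh R Z b)).card : ℤ) = ∑ v, ((Fintype.card V : ℤ) - (G v).card) := by
    have e : ∀ b, ((N R (Yh R Z b)).card : ℤ) =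
        Fintype.card V - (univ.filter fun v => v ∉ N R (Yh R Z b)).card := by
      intro b
      have := hn (fun v => v ∈ N R (Yh R Z b))
      have h' : (univ.filter fun v => v ∈ N R (Yh R Z b)) = N R (Yh R Z b) := by
        ext x
        simp
      rw [h'] at this
      linarith
    have e' : ∑ b, (univ.filter fun v => v ∉ N R (Yh R Z b)).card = ∑ v, (G v).card :=
      (dc (fun v b => v ∉ N R (Yh R Z b))).symm
    rw [sum_congr rfl fun b _ => e b, sum_sub_distrib, sum_sub_distrib]
    congr 1
    exact_mod_cast e'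
  have e3 : ∀ v, ((N R (Hat R Z v)).card : ℤ) ≤ (G v).card + 1 := by
    intro v
    have hs : N R (Hat R Z v) ⊆ insert v (G v) := by
      intro b hb
      rw [mem_insert]
      by_cases hbv : b = v
      · exact Or.inl hbv
      · right
        simp only [hG, mem_filter, mem_univ, true_and]
        intro hv
        obtain ⟨y, hy, hyv⟩ := mem_N.1 hv
        obtain ⟨w, hw, hwb⟩ := mem_N.1 hb
        rcases mem_Yh.1 hy with rfl | hy
        · have hwy : w ∈ Z y := mem_Hat.1 hw y hyv
          have := h.zr y w hwy hwb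
          subst this
          have : y ∈ Z v := mem_Hat.1 hw v (hR v)
          exact hbv (h.zr v y this hyv).symm
        · exact hy (mem_N.2 ⟨w, mem_Hat.1 hw y hyv, hwb⟩)
    have := (card_le_card hs).trans (card_insert_le _ _)
    exact_mod_cast this
  have e4 : ∑ v, ((N R (Hat R Z v)).card : ℤ) ≤ ∑ v, ((G v).card : ℤ) + Fintype.card V := by
    calc ∑ v, ((N R (Hat R Z v)).card : ℤ) ≤ ∑ v, (((G v).card : ℤ) + 1) :=
          sum_le_sum fun v _ => e3 v
      _ = _ := by
          rw [sum_add_distrib]
          simp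
  unfold cost
  have f1 : ∑ b, c R (Yh R Z b) = ∑ b, ((N R (Yh R Z b)).card : ℤ) - ∑ b, ((Yh R Z b).card : ℤ) := by
    unfold c
    rw [sum_sub_distrib]
  have f2 : ∑ a, (c R (Z a) - c R (X a)) = ∑ a, ((N R (Z a)).card : ℤ) - ∑ a, ((Z a).card : ℤ) -
      ∑ a, c R (X a) := by
    rw [sum_sub_distrib]
    unfold c
    rw [sum_sub_distrib]
  have f3 : ∑ v, (c R (Hat R Z v) - c R (Hat R X v)) =
      ∑ v, ((N R (Hat R Z v)).card : ℤ) - ∑ v, ((Hat R Z v).card : ℤ) -
      ∑ v, c R (Hat R X v) := by
    rw [sum_sub_distrib]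
    unfold c
    rw [sum_sub_distrib]
  rw [sum_sub_distrib] at e1 e2
  rw [f2, f3] at hmain
  rw [f1]
  simp only [sum_const, card_univ, nsmul_eq_mul] at e1 e2
  linarith

open Classical in
/-- The new pair and its cost. -/
theorem next_pair (R : V → V → Prop) (hR : ∀ a, R a a) (X Z : V → Finset V) (h : Adm R X Z) :
    ∃ X' Z', Adm R X' Z' ∧ cost R X' Z' ≤
      ∑ a, c R (N R (Hat R X a)) + ∑ b, c R (N R (Yh R Z b)) := by
  set Q : V → Finset V := fun b => N R (Yh R Z b) with hQ
  have hXh : ∀ a, a ∈ Hat R X a := fun a => mem_Hat.2 fun u hu => h.nx u a hu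
  have hYh : ∀ a, a ∈ Yh R Z a := fun a => mem_Yh.2 (Or.inl rfl)
  have hQself : ∀ a, a ∈ Q a := fun a => mem_N.2 ⟨a, hYh a, hR a⟩
  have hleg := legal R hR X Z h
  refine ⟨fun a => N R (Hat R X a), fun a => insert a (univ.filter fun b => a ∉ Q b), ⟨?_, ?_, ?_⟩,
    ?_⟩
  · intro a b hab
    exact mem_N.2 ⟨a, hXh a, hab⟩
  · intro a b hb
    rw [mem_insert]
    by_cases hba : b = a
    · exact Or.inl hba
    · right
      refine mem_filter.2 ⟨mem_univ _, fun hcon => ?_⟩
      exact hleg a b (fun e => hba e.symm) hb hcon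
  · intro a b hb hba
    rw [mem_insert, mem_filter] at hb
    rcases hb with hb | hb
    · exact hb.symm
    · exact absurd (mem_N.2 ⟨b, hYh b, hba⟩) hb.2
  · have hn : ∀ (P : V → Prop) [DecidablePred P],
        ((univ.filter fun x => ¬ P x).card : ℤ) = Fintype.card V - (univ.filter P).card := by
      intro P _
      have := Finset.card_filter_add_card_filter_not (s := (univ : Finset V)) P
      rw [card_univ] at this
      omega
    have g1 : ∑ a, (((insert a (univ.filter fun b => a ∉ Q b) : Finset V)).card : ℤ) =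
        Fintype.card V + ∑ b, ((Fintype.card V : ℤ) - (Q b).card) := by
      have e : ∀ a, (((insert a (univ.filter fun b => a ∉ Q b) : Finset V)).card : ℤ) =
          1 + (univ.filter fun b => a ∉ Q b).card := by
        intro a
        rw [card_insert_of_notMem]
        · push_cast
          ring
        · rw [mem_filter, not_and, not_not]
          intro _
          exact hQself a
      have e' : ∑ a, (univ.filter fun b => a ∉ Q b).card =
          ∑ b, (univ.filter fun a => a ∉ Q b).card := dc (fun a b => a ∉ Q b)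
      rw [sum_congr rfl fun a _ => e a, sum_add_distrib, ← Nat.cast_sum, e', Nat.cast_sum]
      congr 1
      · simp
      · refine sum_congr rfl fun b _ => ?_
        rw [hn (fun a => a ∈ Q b)]
        congr 2
        simp
    have g2 : (Fintype.card V : ℤ) + ∑ b, ((Fintype.card V : ℤ) - (N R (Q b)).card) ≤
        ∑ v, ((Hat R (fun a => insert a (univ.filter fun b => a ∉ Q b)) v).card : ℤ) := by
      have e : ∀ v, (1 : ℤ) + (univ.filter fun b => v ∉ N R (Q b)).card ≤
          ((Hat R (fun a => insert a (univ.filter fun b => a ∉ Q b)) v).card : ℤ) := by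
        intro v
        have hs : insert v (univ.filter fun b => v ∉ N R (Q b)) ⊆
            Hat R (fun a => insert a (univ.filter fun b => a ∉ Q b)) v := by
          intro b hb
          rw [mem_Hat]
          intro u hu
          rw [mem_insert, mem_filter]
          rw [mem_insert, mem_filter] at hb
          rcases hb with hb | hb
          · subst hb
            by_cases hbu : b = u
            · exact Or.inl hbu
            · right
              refine ⟨mem_univ _, fun hcon => ?_⟩
              exact hleg u b (fun e => hbu e.symm) (mem_N.2 ⟨u, hXh u, hu⟩) hcon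
          · right
            exact ⟨mem_univ _, fun hcon => hb.2 (mem_N.2 ⟨u, hcon, hu⟩)⟩
        have hc := card_le_card hs
        rw [card_insert_of_notMem] at hc
        · omega
        · rw [mem_filter, not_and, not_not]
          intro _
          exact mem_N.2 ⟨v, hQself v, hR v⟩
      have e' : ∑ v, (univ.filter fun b => v ∉ N R (Q b)).card =
          ∑ b, (univ.filter fun v => v ∉ N R (Q b)).card := dc (fun v b => v ∉ N R (Q b))
      have e'' : ∑ b, ((univ.filter fun v => v ∉ N R (Q b)).card : ℤ) =
          ∑ b, ((Fintype.card V : ℤ) - (N R (Q b)).card) := by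
        refine sum_congr rfl fun b _ => ?_
        rw [hn (fun v => v ∈ N R (Q b))]
        congr 2
        simp
      calc (Fintype.card V : ℤ) + ∑ b, ((Fintype.card V : ℤ) - (N R (Q b)).card)
          = ∑ v, ((1 : ℤ) + (univ.filter fun b => v ∉ N R (Q b)).card) := by
            rw [sum_add_distrib, ← Nat.cast_sum (s := univ)
              (f := fun v => (univ.filter fun b => v ∉ N R (Q b)).card), e', Nat.cast_sum, e'']
            simp
        _ ≤ _ := sum_le_sum fun v _ => e v
    unfold cost
    have f1 : ∑ b, c R (Q b) = ∑ b, ((N R (Q b)).card : ℤ) - ∑ b, ((Q b).card : ℤ) := by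
      unfold c
      rw [sum_sub_distrib]
    rw [sum_sub_distrib] at g1 g2
    simp only [hQ] at f1 g1 g2 ⊢
    linarith

/-- Seymour's conjecture for the relation: the contradiction. -/
theorem no_strict [Nonempty V] (R : V → V → Prop) (hR : ∀ a, R a a)
    (hanti : ∀ a b, R a b → R b a → a = b)
    (hout : ∀ a, ∃ b, b ≠ a ∧ R a b)
    (hG : ∀ S : Finset V, N R S ≠ S → c R (N R S) < c R S) : False := by
  classical
  -- an optimal pair
  have hfin : (Set.univ : Set ((V → Finset V) × (V → Finset V))).Finite := Set.toFinite _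
  let A : Set ((V → Finset V) × (V → Finset V)) := {q | Adm R q.1 q.2}
  have hA : A.Nonempty := by
    refine ⟨(fun a => univ.filter fun b => R a b, fun a => univ.filter fun b => R a b), ?_⟩
    refine ⟨fun a b hab => ?_, fun a => Subset.refl _, fun a b hb hba => ?_⟩
    · exact mem_filter.2 ⟨mem_univ _, hab⟩
    · exact hanti a b (mem_filter.1 hb).2 hba
  obtain ⟨⟨X, Z⟩, hXZ, hmin⟩ :=
    Set.exists_min_image A (fun q => cost R q.1 q.2) (Set.toFinite A) hA
  have hadm : Adm R X Z := hXZ
  have hopt : ∀ X' Z', Adm R X' Z' → cost R X Z ≤ cost R X' Z' := fun X' Z' h' =>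
    hmin (X', Z') h'
  have hmain := main_ineq R X Z hadm.nx hadm.xz (row_opt R X Z hadm hopt)
    (col_opt R X Z hadm hopt)
  have hcand := cost_cand R hR X Z hadm hmain
  obtain ⟨X', Z', hadm', hcost'⟩ := next_pair R hR X Z hadm
  have hle := hopt X' Z' hadm'
  have hGle : ∀ S : Finset V, c R (N R S) ≤ c R S := by
    intro S
    by_cases hS : N R S = S
    · rw [hS]
    · exact (hG S hS).le
  -- some row is not closed
  have hex : ∃ a, N R (Hat R X a) ≠ Hat R X a := by
    by_contra hcon
    push Not at hcon
    obtain ⟨C, hC, hCmin⟩ := Finset.exists_min_image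
      ((univ : Finset (Finset V)).filter fun C => C.Nonempty ∧ N R C = C) Finset.card
      ⟨univ, by
        simp only [mem_filter, mem_univ, true_and]
        exact ⟨univ_nonempty, Subset.antisymm (subset_univ _) (sub_N hR _)⟩⟩
    simp only [mem_filter, mem_univ, true_and] at hC hCmin
    obtain ⟨⟨a, ha⟩, hCc⟩ := hC
    obtain ⟨a', hne, haa'⟩ := hout a
    have ha'C : a' ∈ C := by
      rw [← hCc]
      exact mem_N.2 ⟨a, ha, haa'⟩
    have hnot : a ∉ Hat R X a' := by
      rw [← hcon a']
      intro hmem
      refine legal R hR X Z hadm a' a hne hmem ?_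
      exact mem_N.2 ⟨a, mem_Yh.2 (Or.inl rfl), haa'⟩
    have hself : a' ∈ Hat R X a' := mem_Hat.2 fun u hu => hadm.nx u a' hu
    have hclosed : N R (Hat R X a' ∩ C) = Hat R X a' ∩ C := by
      apply Subset.antisymm
      · refine subset_inter ?_ ?_
        · exact (N_mono inter_subset_left).trans (hcon a').subset
        · exact (N_mono inter_subset_right).trans hCc.subset
      · exact sub_N hR _
    have h1 := hCmin (Hat R X a' ∩ C) ⟨⟨a', mem_inter.2 ⟨hself, ha'C⟩⟩, hclosed⟩
    have h2 : (Hat R X a' ∩ C).card < C.card := by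
      apply card_lt_card
      refine ⟨inter_subset_right, fun hsub => ?_⟩
      exact hnot (mem_inter.1 (hsub ha)).1
    omega
  obtain ⟨a0, ha0⟩ := hex
  have hs1 : ∑ a, c R (N R (Hat R X a)) < ∑ a, c R (Hat R X a) :=
    sum_lt_sum (fun a _ => hGle _) ⟨a0, mem_univ _, hG _ ha0⟩
  have hs2 : ∑ b, c R (N R (Yh R Z b)) ≤ ∑ b, c R (Yh R Z b) := sum_le_sum fun b _ => hGle _
  linarith

/-- **Seymour's second neighbourhood conjecture.** -/
theorem seymour {V : Type*} [Fintype V] [Nonempty V] (D : OGraph V) :
    ∃ v, (N1 D v).card ≤ (N2 D v).card := by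
  classical
  by_contra hcon
  push Not at hcon
  obtain ⟨D', hD'⟩ := exists_min D hcon
  refine no_strict (Rc D') (fun a => Or.inl rfl) ?_ ?_ (strictG D' hD')
  · rintro a b (h1 | h1) (h2 | h2)
    · exact h1
    · exact h1
    · exact h2.symm
    · exact absurd h2 (D'.asymm _ _ h1)
  · intro a
    have h1 := hD'.ce a
    have h2 : (N1 D' a).Nonempty := card_pos.1 (by omega)
    obtain ⟨b, hb⟩ := h2
    refine ⟨b, ?_, Or.inr (mem_N1.1 hb)⟩
    rintro rfl
    exact D'.loopless _ (mem_N1.1 hb)

end Vale.Agent.P038.H596
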